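import Mathlib
import Vale.Agent.Lib.P243.CapMain
import Vale.Agent.Lib.P243.R3.Defs
open MeasureTheory Set Vale.Agent.Lib.P243

/-!
P243, module R3, pool job J13 (backup copy by helper91): transfer of the model chord bound and
of its equality case from the model space to Euclidean 3-space through the coordinate map
`Cap.triE c` of an orthonormal basis.
-/

namespace Vale.Agent.Lib.P243.R3

/-- J13. Transfer of the model statements to Euclidean 3-space. -/
theorem M3e_transfer
    (hvol : ∀ (c : OrthonormalBasis (Fin 3) ℝ E3) (X : Set E3),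
      volume (Cap.triE c '' X) = volume X)
    (hA : ∀ K : Set E3, IsCompact K → Convex ℝ K → ∀ a b : E3, OrthoPair a b → ∀ w : E3,
      inner ℝ w a = 0 → inner ℝ w b = 0 →
      Ahat K w = ‖w‖ * (volume (planeCoords a b '' K)).toReal)
    (hB : ∀ w : E3, ∃ a b : E3, OrthoPair a b ∧ inner ℝ w a = 0 ∧ inner ℝ w b = 0)
    (hle : ∀ (K : Set (ℝ × (ℝ × ℝ))), IsCompact K → Convex ℝ K → ∀ (z0 l : ℝ) (o : ℝ × ℝ),
      0 ≤ l → (z0, o) ∈ K → (z0 + l, o) ∈ K →
      ENNReal.ofReal l * volume (Prod.snd '' K) ≤ 3 * volume K)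
    (hstar : ∀ (K : Set (ℝ × (ℝ × ℝ))), IsCompact K → Convex ℝ K → (interior K).Nonempty →
      ∀ (z0 l : ℝ) (o : ℝ × ℝ), 0 < l → (z0, o) ∈ K → (z0 + l, o) ∈ K →
      ENNReal.ofReal l * volume (Prod.snd '' K) = 3 * volume K →
      ∀ x ∈ frontier K, segment ℝ ((z0, o) : ℝ × (ℝ × ℝ)) x ⊆ frontier K ∨
        segment ℝ ((z0 + l, o) : ℝ × (ℝ × ℝ)) x ⊆ frontier K)
    {K : Set E3} (hK : Body K) {p q : E3} (hp : p ∈ K) (hq : q ∈ K) :
    Ahat K (q - p) ≤ 3 * (volume K).toReal ∧
      (p ≠ q → Ahat K (q - p) = 3 * (volume K).toReal → ∀ x ∈ frontier K,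
        segment ℝ p x ⊆ frontier K ∨ segment ℝ q x ⊆ frontier K) := by
  obtain ⟨a, b, hab, hwa, hwb⟩ := hB (q - p)
  obtain ⟨c, hc0, hc1⟩ := exists_basis_three finrank_E3 a b hab.1 hab.2.1
    (by rw [real_inner_comm]; exact hab.2.2)
  have hΦ : ∀ x, Cap.triE c x = (inner ℝ x (c 2), planeCoords a b x) := fun x => by
    rw [← hc0, ← hc1]
    exact Cap.triE_apply c x
  have hK'c : IsCompact (Cap.triE c '' K) := hK.compact.image (Cap.triE c).continuous
  have hK'conv : Convex ℝ (Cap.triE c '' K) := hK.conv.linear_image (Cap.triE c).toLinearMap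
  have hfr : ∀ X : Set E3, Cap.triE c '' frontier X = frontier (Cap.triE c '' X) :=
    fun X => (Cap.triE c).toHomeomorph.image_frontier X
  have hK'int : (interior (Cap.triE c '' K)).Nonempty := by
    have h := (Cap.triE c).toHomeomorph.image_interior K
    have h2 : (Cap.triE c '' interior K).Nonempty := hK.int.image _
    rw [← show (Cap.triE c).toHomeomorph '' interior K = interior (Cap.triE c '' K) from h]
    exact h2
  have hsnd : Prod.snd '' (Cap.triE c '' K) = planeCoords a b '' K := by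
    rw [image_image]
    apply image_congr
    intro x _
    rw [hΦ]
  have hvolK : volume (Cap.triE c '' K) = volume K := hvol c K
  -- the two endpoints have the same plane coordinates
  have hoq : planeCoords a b q = planeCoords a b p := by
    rw [inner_sub_left] at hwa hwb
    simp only [planeCoords, Prod.mk.injEq]
    constructor <;> linarith
  have hΦq : Cap.triE c q
      = (inner ℝ p (c 2) + inner ℝ (q - p) (c 2), planeCoords a b p) := by
    rw [hΦ q, hoq, inner_sub_left]
    simp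
  have hnorm : |inner ℝ (q - p) (c 2)| = ‖q - p‖ := by
    have h := c.sum_sq_inner_left (q - p)
    rw [Fin.sum_univ_three, hc0, hc1, hwa, hwb] at h
    have h2 : inner ℝ (q - p) (c 2) ^ 2 = ‖q - p‖ ^ 2 := by linarith
    have h3 := congrArg Real.sqrt h2
    rwa [Real.sqrt_sq_eq_abs, Real.sqrt_sq (norm_nonneg _)] at h3
  have hAw : Ahat K (q - p) = ‖q - p‖ * (volume (planeCoords a b '' K)).toReal :=
    hA K hK.compact hK.conv a b hab (q - p) hwa hwb
  have hfinK : volume K ≠ ⊤ := hK.compact.measure_lt_top.ne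
  have hfinP : volume (planeCoords a b '' K) ≠ ⊤ := by
    rw [← hsnd]
    exact (hK'c.image continuous_snd).measure_lt_top.ne
  -- the chord in the model, oriented upwards
  have key : ∃ z0 l : ℝ, 0 ≤ l ∧ l = ‖q - p‖ ∧
      ((((z0, planeCoords a b p) : ℝ × (ℝ × ℝ)) = Cap.triE c p ∧
          ((z0 + l, planeCoords a b p) : ℝ × (ℝ × ℝ)) = Cap.triE c q) ∨
        (((z0, planeCoords a b p) : ℝ × (ℝ × ℝ)) = Cap.triE c q ∧
          ((z0 + l, planeCoords a b p) : ℝ × (ℝ × ℝ)) = Cap.triE c p)) := by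
    rcases le_total 0 (inner ℝ (q - p) (c 2)) with hσ | hσ
    · refine ⟨inner ℝ p (c 2), inner ℝ (q - p) (c 2), hσ, ?_, Or.inl ⟨(hΦ p).symm, hΦq.symm⟩⟩
      rw [← hnorm, abs_of_nonneg hσ]
    · refine ⟨inner ℝ p (c 2) + inner ℝ (q - p) (c 2), -inner ℝ (q - p) (c 2), by linarith, ?_,
        Or.inr ⟨hΦq.symm, ?_⟩⟩
      · rw [← hnorm, abs_of_nonpos hσ]
      · rw [hΦ p]
        simp
  obtain ⟨z0, l, hl0, hl, hends⟩ := key
  have h0 : ((z0, planeCoords a b p) : ℝ × (ℝ × ℝ)) ∈ Cap.triE c '' K := by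
    rcases hends with ⟨h, _⟩ | ⟨h, _⟩
    · rw [h]; exact mem_image_of_mem _ hp
    · rw [h]; exact mem_image_of_mem _ hq
  have h1 : ((z0 + l, planeCoords a b p) : ℝ × (ℝ × ℝ)) ∈ Cap.triE c '' K := by
    rcases hends with ⟨_, h⟩ | ⟨_, h⟩
    · rw [h]; exact mem_image_of_mem _ hq
    · rw [h]; exact mem_image_of_mem _ hp
  have hle' := hle _ hK'c hK'conv z0 l (planeCoords a b p) hl0 h0 h1
  rw [hsnd, hvolK] at hle'
  have hfinL : ENNReal.ofReal l * volume (planeCoords a b '' K) ≠ ⊤ :=
    ENNReal.mul_ne_top ENNReal.ofReal_ne_top hfinP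
  have hfinR : (3 : ENNReal) * volume K ≠ ⊤ := ENNReal.mul_ne_top (by norm_num) hfinK
  have hLreal : (ENNReal.ofReal l * volume (planeCoords a b '' K)).toReal
      = l * (volume (planeCoords a b '' K)).toReal := by
    rw [ENNReal.toReal_mul, ENNReal.toReal_ofReal hl0]
  have hRreal : ((3 : ENNReal) * volume K).toReal = 3 * (volume K).toReal := by
    rw [ENNReal.toReal_mul]
    norm_num
  constructor
  · rw [hAw, ← hl, ← hLreal, ← hRreal]
    exact ENNReal.toReal_mono hfinR hle'
  · intro hpq hEq x hx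
    have hlpos : 0 < l := by
      rw [hl]
      exact norm_pos_iff.2 (sub_ne_zero.2 (Ne.symm hpq))
    have heq' : ENNReal.ofReal l * volume (Prod.snd '' (Cap.triE c '' K))
        = 3 * volume (Cap.triE c '' K) := by
      rw [hsnd, hvolK]
      rw [hAw, ← hl, ← hLreal, ← hRreal] at hEq
      exact (ENNReal.toReal_eq_toReal_iff' hfinL hfinR).1 hEq
    have hxf : Cap.triE c x ∈ frontier (Cap.triE c '' K) := by
      rw [← hfr]
      exact mem_image_of_mem _ hx
    have hseg : ∀ u : E3, segment ℝ (Cap.triE c u) (Cap.triE c x) ⊆ frontier (Cap.triE c '' K) →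
        segment ℝ u x ⊆ frontier K := by
      intro u hu y hy
      have hy2 : Cap.triE c y ∈ frontier (Cap.triE c '' K) := by
        apply hu
        obtain ⟨s, t, hs, ht, hst, rfl⟩ := hy
        exact ⟨s, t, hs, ht, hst, by rw [map_add, map_smul, map_smul]⟩
      rw [← hfr] at hy2
      obtain ⟨y', hy', hyy⟩ := hy2
      rwa [(Cap.triE c).injective hyy] at hy'
    rcases hstar _ hK'c hK'conv hK'int z0 l (planeCoords a b p) hlpos h0 h1 heq'
      (Cap.triE c x) hxf with h | h
    · rcases hends with ⟨e0, _⟩ | ⟨e0, _⟩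
      · left
        apply hseg
        rw [← e0]
        exact h
      · right
        apply hseg
        rw [← e0]
        exact h
    · rcases hends with ⟨_, e1⟩ | ⟨_, e1⟩
      · right
        apply hseg
        rw [← e1]
        exact h
      · left
        apply hseg
        rw [← e1]
        exact h

end Vale.Agent.Lib.P243.R3
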