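import Mathlib
import Vale.Agent.Lib.P243.Defs
import Vale.Agent.Lib.P243.R3.Defs
import Vale.Agent.Lib.P243.R3.M7b
import Vale.Agent.Lib.P243.R3.M9a
import Vale.Agent.Lib.P243.R3.M9b
import Vale.Agent.Lib.P243.R3.M9c1
import Vale.Agent.Lib.P243.R3.M9c2

/-!
# P243, `r_3 > 1/3`: module M9d (uniform constant on the normalised family), backup copy

`M9d_blaschke` is the Blaschke selection for the normalised family (assembly of the landed
modules M9a, M9c1, M9c2). `M9d_of` is the statement of `M9d_exists_uniform` with the two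
modules that are not on main yet (M6: every body has a calibration below `3`; M7: transfer of
a calibration to a nearby body) as hypotheses, in exactly the shape of the skeleton.
-/

namespace Vale.Agent.Lib.P243.R3

open MeasureTheory Set Vale.Agent.Lib.P243

/-- Blaschke selection for the normalised family. -/
theorem M9d_blaschke (Kseq : ℕ → Set E3)
    (h : ∀ n, Body (Kseq n) ∧ Simp3 ⊆ Kseq n ∧ Kseq n ⊆ Cube3) :
    ∃ Ks : Set E3, Body Ks ∧ Simp3 ⊆ Ks ∧ Ks ⊆ Cube3 ∧ ∃ φ : ℕ → ℕ, StrictMono φ ∧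
      Filter.Tendsto (fun n => Metric.hausdorffDist (Kseq (φ n)) Ks) Filter.atTop (nhds 0) := by
  obtain ⟨Ks, hc, hne, φ, hφ, hlim⟩ := M9c1_blaschke_raw Kseq 2 (fun n =>
    ⟨(h n).1.compact, (h n).1.int.mono interior_subset, (h n).2.2.trans M9c0_cube_ball⟩)
  obtain ⟨h1, h2, h3⟩ := M9c2_limit_props (fun n => Kseq (φ n)) Ks hc hne (fun n => h (φ n)) hlim
  exact ⟨Ks, h1, h2, h3, φ, hφ, hlim⟩

/-- A uniform calibration constant below `3` on the normalised family, from the per-body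
statement (M6) and the transfer lemma (M7), taken here as hypotheses. -/
theorem M9d_of
    (hM6 : ∀ {K : Set E3}, Body K → ∃ (g : E3 → ℝ) (Θ : ℝ), 0 < Θ ∧ Θ < 3 ∧ Good K g Θ)
    (hM7 : ∀ {Ks K : Set E3}, Body Ks → Body K → ∀ (c : E3) {η : ℝ}, c ∈ Ks → 0 < η →
      η ≤ 1 / 24 → hom c (1 - η) '' Ks ⊆ K → K ⊆ hom c (1 + η) '' Ks →
      ∀ {g : E3 → ℝ} {Θ : ℝ}, 0 < Θ → Good Ks g Θ →
      Good K (fun x => g (hom c (1 + η)⁻¹ x)) (Θ / (1 - 12 * η))) :
    ∃ Θ0 : ℝ, 0 < Θ0 ∧ Θ0 < 3 ∧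
      ∀ K : Set E3, Body K → Simp3 ⊆ K → K ⊆ Cube3 → ∃ g : E3 → ℝ, Good K g Θ0 := by
  by_contra hcon
  push Not at hcon
  have hΘn : ∀ n : ℕ, (0 : ℝ) < 3 - 1 / ((n : ℝ) + 1) ∧ 3 - 1 / ((n : ℝ) + 1) < 3 := by
    intro n
    have hpos : (0 : ℝ) < (n : ℝ) + 1 := by positivity
    have h1 : 1 / ((n : ℝ) + 1) ≤ 1 := by
      rw [div_le_one hpos]; linarith [Nat.cast_nonneg (α := ℝ) n]
    have h2 : 0 < 1 / ((n : ℝ) + 1) := by positivity
    constructor <;> linarith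
  choose Kseq hKseq using fun n : ℕ => hcon (3 - 1 / ((n : ℝ) + 1)) (hΘn n).1 (hΘn n).2
  obtain ⟨Ks, hKs, hsKs, hKsc, φ, hφ, hlim⟩ :=
    M9d_blaschke Kseq (fun n => ⟨(hKseq n).1, (hKseq n).2.1, (hKseq n).2.2.1⟩)
  obtain ⟨g, Θ, hΘ0, hΘ3, hG⟩ := hM6 hKs
  obtain ⟨c, ρ, hρ, hball⟩ := M9a_simp3_ball
  have hcKs : c ∈ Ks := hsKs (hball (Metric.mem_closedBall_self hρ.le))
  set η : ℝ := min (1 / 24) ((1 - Θ / 3) / 24) with hη_def
  have hη0 : 0 < η := by
    rw [hη_def]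
    refine lt_min (by norm_num) ?_
    linarith
  have hη24 : η ≤ 1 / 24 := min_le_left _ _
  have hη2 : η ≤ (1 - Θ / 3) / 24 := min_le_right _ _
  have hden : 0 < 1 - 12 * η := by linarith
  have hΘ' : Θ / (1 - 12 * η) < 3 := by
    rw [div_lt_iff₀ hden]
    nlinarith
  obtain ⟨N, hN⟩ := exists_nat_one_div_lt (show (0 : ℝ) < 3 - Θ / (1 - 12 * η) by linarith)
  have hev : ∀ᶠ n in Filter.atTop, Metric.hausdorffDist (Kseq (φ n)) Ks < η * ρ :=
    (tendsto_order.1 hlim).2 _ (mul_pos hη0 hρ)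
  obtain ⟨N', hN'⟩ := Filter.eventually_atTop.1 hev
  have hK := hKseq (φ (max N N'))
  have hsand := M9b_sandwich hKs hK.1 c hρ (hball.trans hsKs) (hball.trans hK.2.1) hη0
    (by linarith) (hN' (max N N') (le_max_right _ _))
  have hG' := hM7 hKs hK.1 c hcKs hη0 hη24 hsand.1 hsand.2 hΘ0 hG
  have hle : Θ / (1 - 12 * η) ≤ 3 - 1 / ((φ (max N N') : ℝ) + 1) := by
    have h1 : (N : ℝ) ≤ φ (max N N') := by
      exact_mod_cast (le_max_left N N').trans (hφ.id_le (max N N'))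
    have h2 : 1 / ((φ (max N N') : ℝ) + 1) ≤ 1 / ((N : ℝ) + 1) := by
      apply one_div_le_one_div_of_le (by positivity)
      linarith
    linarith
  exact hK.2.2.2 _ (M7b_good_mono hK.1 hG' hle)

end Vale.Agent.Lib.P243.R3
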